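-- KEEP
import Claimed.Agent.R252.S3m.Sum

/-! PACKED FILE (helper10, closed unit): parts S3a.Defs, S3a.Exit, S3m.Disc, S3a.Contract.  Each part is wrapped in its own `section`. -/

section PkS3aDefs

/-!
# ROW 252 (Kakeya in R^4), Sec 3a: two-colour matching (L3.3 = `lem:two-color-matching`).  DEFINITIONS OF THE EXIT        (architect helper10; prefix `k3a_`, `K3a`)

PAPER-FREE, Mathlib only.   ONE scale `N`, all slacks are one explicit `K ≥ 1`.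

* `K3aJet ι J K g` : JET DATA of a list of functions on `[0,1]`: `g i j t` is the `j`-th derivative of the `i`-th function (`j ≤ J + 1`), all bounded by `K`.
  (No `iteratedDeriv`: the consumer supplies the derivatives he has.)
* `K3aCfg ι₁ ι₂`   : two lists (jet data), probability weights `π₁`, `π₂` on the indices and the DENSITY `ρ i₁ i₂ t` of the incidence law on `(i₁, i₂, t)`.
* `K3aCfg.Ok X D J d N K` : the hypotheses of L3.3 at scale `N`: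
  only the FIRST list is required to be small (`card ι₁ ≤ K N^d`; the proof counts the states through ONE colour only); both `(index, time)` marginals are `≤ K π dt`; total mass `≥ 1/K`;
  on the support of `ρ` the values are `K/N`-close and some derivative of order `1 ≤ j ≤ D` differs by `≥ 1/K`.
-/

set_option autoImplicit false
open Set MeasureTheory

namespace Claimed.Agent.R252

/-- jet data of a list of functions on `[0,1]`. -/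
structure K3aJet (ι : Type) (J : ℕ) (K : ℝ) (g : ι → ℕ → ℝ → ℝ) : Prop where
  der : ∀ i, ∀ j ≤ J, ∀ t ∈ Icc (0 : ℝ) 1, HasDerivWithinAt (g i j) (g i (j + 1) t) (Icc 0 1) t
  bd : ∀ i, ∀ j ≤ J + 1, ∀ t ∈ Icc (0 : ℝ) 1, |g i j t| ≤ K

/-- a two-colour configuration. -/
structure K3aCfg (ι₁ ι₂ : Type) where
  /-- jets of the first list -/
  g₁ : ι₁ → ℕ → ℝ → ℝ
  /-- jets of the second list -/
  g₂ : ι₂ → ℕ → ℝ → ℝ
  /-- index weights of the first colour -/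
  π₁ : ι₁ → ℝ
  /-- index weights of the second colour -/
  π₂ : ι₂ → ℝ
  /-- density of the incidence law -/
  ρ : ι₁ → ι₂ → ℝ → ℝ

/-- the hypotheses of the two-colour matching lemma at scale `N` with slack `K`. -/
structure K3aCfg.Ok {ι₁ ι₂ : Type} [Fintype ι₁] [Fintype ι₂] (X : K3aCfg ι₁ ι₂) (D J : ℕ) (d N K : ℝ) : Prop where
  card : (Fintype.card ι₁ : ℝ) ≤ K * N ^ d
  jet₁ : K3aJet ι₁ J K X.g₁
  jet₂ : K3aJet ι₂ J K X.g₂
  π₁_nonneg : ∀ i, 0 ≤ X.π₁ i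
  π₂_nonneg : ∀ i, 0 ≤ X.π₂ i
  π₁_sum : ∑ i, X.π₁ i ≤ 1
  π₂_sum : ∑ i, X.π₂ i ≤ 1
  ρ_meas : ∀ i₁ i₂, Measurable (X.ρ i₁ i₂)
  ρ_nonneg : ∀ i₁ i₂ t, 0 ≤ X.ρ i₁ i₂ t
  ρ_supp : ∀ i₁ i₂ t, t ∉ Icc (0 : ℝ) 1 → X.ρ i₁ i₂ t = 0
  marg₁ : ∀ i₁ t, ∑ i₂, X.ρ i₁ i₂ t ≤ K * X.π₁ i₁
  marg₂ : ∀ i₂ t, ∑ i₁, X.ρ i₁ i₂ t ≤ K * X.π₂ i₂
  mass : 1 / K ≤ ∑ i₁, ∑ i₂, ∫ t in Icc (0 : ℝ) 1, X.ρ i₁ i₂ t
  close : ∀ i₁ i₂ t, X.ρ i₁ i₂ t ≠ 0 → |X.g₁ i₁ 0 t - X.g₂ i₂ 0 t| ≤ K / N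
  gap : ∀ i₁ i₂ t, X.ρ i₁ i₂ t ≠ 0 → ∃ j, 1 ≤ j ∧ j ≤ D ∧ 1 / K ≤ |X.g₁ i₁ j t - X.g₂ i₂ j t|

end Claimed.Agent.R252

end PkS3aDefs

section PkS3aExit

/-!
# ROW 252, Sec 3a: THE EXITS OF L3.3 (two-colour matching) IN THREE MODELS, AND THE REDUCTIONS BETWEEN THEM.   CONTRACT        (architect helper10; prefix `k3a`, `K3a`)

PAPER-FREE, Mathlib only.
* `K3aMs`, `K3aMs.Ok`, `k3a_matching_meas` : MEASURE FORM (for the consumers: Cor 3.4 = unit S3c).  The incidence law is a family `pr i₁ i₂` of measures on the time axis;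
  marginals `∑_{i₂} pr i₁ i₂ ≤ K π₁ i₁ dt|[0,1]`;  the events hold `pr i₁ i₂`-almost everywhere.  No density, no pointwise requirement.
* `K3aFin`, `K3aFin.Ok`, `k3a_matching_fin` : FINITE FORM (what the proof of L3.3, unit S3m, produces): time = the `2^Q` dyadic cells, evaluated at their midpoints `k3aTt Q τ`, weights `w i₁ i₂ τ`;
  valid for EVERY sufficiently fine mesh (`N^A ≤ 2^Q`).
* `k3a_meas_of_fin` : the discretisation (leaves D1-D4 below);   `k3a_dens_of_meas` : the density form `K3aCfg.Ok` of `Defs.lean`.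
In all three forms only the FIRST list is required to be small (`card ι₁ ≤ K N^d`): the proof counts the states through one colour only (03 l.425-430).
-/

set_option autoImplicit false
open Set MeasureTheory
open scoped ENNReal

namespace Claimed.Agent.R252

/-! ## 1. The measure form -/

/-- a two-colour configuration, measure form. -/
structure K3aMs (ι₁ ι₂ : Type) where
  /-- jets of the first list -/
  g₁ : ι₁ → ℕ → ℝ → ℝ
  /-- jets of the second list -/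
  g₂ : ι₂ → ℕ → ℝ → ℝ
  /-- index weights of the first colour -/
  π₁ : ι₁ → ℝ
  /-- index weights of the second colour -/
  π₂ : ι₂ → ℝ
  /-- the incidence law on `(i₁, i₂, t)` -/
  pr : ι₁ → ι₂ → Measure ℝ

/-- the hypotheses of the two-colour matching lemma at scale `N` with slack `K`, measure form. -/
structure K3aMs.Ok {ι₁ ι₂ : Type} [Fintype ι₁] [Fintype ι₂] (X : K3aMs ι₁ ι₂) (D J : ℕ) (d N K : ℝ) : Prop where
  card₁ : (Fintype.card ι₁ : ℝ) ≤ K * N ^ d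
  jet₁ : K3aJet ι₁ J K X.g₁
  jet₂ : K3aJet ι₂ J K X.g₂
  π₁_nonneg : ∀ i, 0 ≤ X.π₁ i
  π₂_nonneg : ∀ i, 0 ≤ X.π₂ i
  π₁_sum : ∑ i, X.π₁ i ≤ 1
  π₂_sum : ∑ i, X.π₂ i ≤ 1
  marg₁ : ∀ i₁, ∑ i₂, X.pr i₁ i₂ ≤ ENNReal.ofReal (K * X.π₁ i₁) • volume.restrict (Icc (0 : ℝ) 1)
  marg₂ : ∀ i₂, ∑ i₁, X.pr i₁ i₂ ≤ ENNReal.ofReal (K * X.π₂ i₂) • volume.restrict (Icc (0 : ℝ) 1)
  mass : ENNReal.ofReal (1 / K) ≤ ∑ i₁, ∑ i₂, X.pr i₁ i₂ univ
  ev : ∀ i₁ i₂, ∀ᵐ t ∂(X.pr i₁ i₂), |X.g₁ i₁ 0 t - X.g₂ i₂ 0 t| ≤ K / N ∧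
    ∃ j, 1 ≤ j ∧ j ≤ D ∧ 1 / K ≤ |X.g₁ i₁ j t - X.g₂ i₂ j t|

/-! ## 2. The finite form -/

/-- midpoint of the `τ`-th dyadic cell of level `Q`. -/
noncomputable def k3aTt (Q : ℕ) (τ : Fin (2 ^ Q)) : ℝ := ((τ : ℕ) + 1 / 2) / 2 ^ Q

/-- the `τ`-th dyadic cell of level `Q`. -/
def k3aCell (Q : ℕ) (τ : Fin (2 ^ Q)) : Set ℝ := Ico (((τ : ℕ) : ℝ) / 2 ^ Q) ((((τ : ℕ) : ℝ) + 1) / 2 ^ Q)

/-- a two-colour configuration, finite form. -/
structure K3aFin (ι₁ ι₂ : Type) (Q : ℕ) where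
  /-- jets of the first list -/
  g₁ : ι₁ → ℕ → ℝ → ℝ
  /-- jets of the second list -/
  g₂ : ι₂ → ℕ → ℝ → ℝ
  /-- index weights of the first colour -/
  π₁ : ι₁ → ℝ
  /-- index weights of the second colour -/
  π₂ : ι₂ → ℝ
  /-- weights of the events `(i₁, i₂, τ)` -/
  w : ι₁ → ι₂ → Fin (2 ^ Q) → ℝ

/-- the hypotheses of the two-colour matching lemma at scale `N` with slack `K`, finite form. -/
structure K3aFin.Ok {ι₁ ι₂ : Type} [Fintype ι₁] [Fintype ι₂] {Q : ℕ} (X : K3aFin ι₁ ι₂ Q) (D J : ℕ) (d N K : ℝ) : Prop where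
  card₁ : (Fintype.card ι₁ : ℝ) ≤ K * N ^ d
  jet₁ : K3aJet ι₁ J K X.g₁
  jet₂ : K3aJet ι₂ J K X.g₂
  π₁_nonneg : ∀ i, 0 ≤ X.π₁ i
  π₂_nonneg : ∀ i, 0 ≤ X.π₂ i
  π₁_sum : ∑ i, X.π₁ i ≤ 1
  π₂_sum : ∑ i, X.π₂ i ≤ 1
  w_nonneg : ∀ i₁ i₂ τ, 0 ≤ X.w i₁ i₂ τ
  marg₁ : ∀ i₁ τ, ∑ i₂, X.w i₁ i₂ τ ≤ K * X.π₁ i₁ / 2 ^ Q
  marg₂ : ∀ i₂ τ, ∑ i₁, X.w i₁ i₂ τ ≤ K * X.π₂ i₂ / 2 ^ Q
  mass : 1 / K ≤ ∑ i₁, ∑ i₂, ∑ τ, X.w i₁ i₂ τ
  close : ∀ i₁ i₂ τ, X.w i₁ i₂ τ ≠ 0 → |X.g₁ i₁ 0 (k3aTt Q τ) - X.g₂ i₂ 0 (k3aTt Q τ)| ≤ K / N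
  gap : ∀ i₁ i₂ τ, X.w i₁ i₂ τ ≠ 0 → ∃ j, 1 ≤ j ∧ j ≤ D ∧ 1 / K ≤ |X.g₁ i₁ j (k3aTt Q τ) - X.g₂ i₂ j (k3aTt Q τ)|

/-- the statement of L3.3 in the finite form, for fixed orders and `d₀`. -/
def K3aFinStmt (D J : ℕ) (d₀ : ℝ) : Prop :=
  ∃ ε : ℝ, 0 < ε ∧ ∃ N₁ A : ℝ, ∀ N ≥ N₁, ∀ Q : ℕ, N ^ A ≤ (2 : ℝ) ^ Q → ∀ (ι₁ ι₂ : Type) [Fintype ι₁] [Fintype ι₂] (X : K3aFin ι₁ ι₂ Q),
    ¬ X.Ok D J d₀ N (N ^ ε)

/-- the statement of L3.3 in the measure form. -/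
def K3aMsStmt (D J : ℕ) (d₀ : ℝ) : Prop :=
  ∃ ε : ℝ, 0 < ε ∧ ∃ N₁ : ℝ, ∀ N ≥ N₁, ∀ (ι₁ ι₂ : Type) [Fintype ι₁] [Fintype ι₂] (X : K3aMs ι₁ ι₂), ¬ X.Ok D J d₀ N (N ^ ε)

/-! ## 3. The discretisation -/

/-- the discretisation of a measure configuration. -/
noncomputable def K3aMs.disc {ι₁ ι₂ : Type} (X : K3aMs ι₁ ι₂) (Q : ℕ) : K3aFin ι₁ ι₂ Q where
  g₁ := X.g₁
  g₂ := X.g₂
  π₁ := X.π₁
  π₂ := X.π₂
  w := fun i₁ i₂ τ => (X.pr i₁ i₂ (k3aCell Q τ)).toReal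

theorem k3a_jet_mono {ι : Type} {J : ℕ} {K K' : ℝ} {g : ι → ℕ → ℝ → ℝ} (h : K3aJet ι J K g) (hKK : K ≤ K') : K3aJet ι J K' g :=
  ⟨h.der, fun i j hj t ht => (h.bd i j hj t ht).trans hKK⟩

/-- **D1** the slack may be enlarged (all fields are monotone in `K`; `0 < K` for `mass`, `gap`; `0 ≤ N` for `card`, `close`). -/
theorem K3aFin.Ok.mono {ι₁ ι₂ : Type} [Fintype ι₁] [Fintype ι₂] {Q : ℕ} {X : K3aFin ι₁ ι₂ Q} {D J : ℕ} {d N K K' : ℝ}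
    (h : X.Ok D J d N K) (hN : 0 < N) (hK : 0 < K) (hKK : K ≤ K') : X.Ok D J d N K' := by
  have hinv : 1 / K' ≤ 1 / K := one_div_le_one_div_of_le hK hKK
  refine ⟨h.card₁.trans (mul_le_mul_of_nonneg_right hKK (Real.rpow_nonneg hN.le d)), k3a_jet_mono h.jet₁ hKK, k3a_jet_mono h.jet₂ hKK,
    h.π₁_nonneg, h.π₂_nonneg, h.π₁_sum, h.π₂_sum, h.w_nonneg, fun i₁ τ => (h.marg₁ i₁ τ).trans ?_, fun i₂ τ => (h.marg₂ i₂ τ).trans ?_,
    hinv.trans h.mass, fun i₁ i₂ τ hw => (h.close i₁ i₂ τ hw).trans ?_, fun i₁ i₂ τ hw => ?_⟩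
  · exact div_le_div_of_nonneg_right (mul_le_mul_of_nonneg_right hKK (h.π₁_nonneg i₁)) (by positivity)
  · exact div_le_div_of_nonneg_right (mul_le_mul_of_nonneg_right hKK (h.π₂_nonneg i₂)) (by positivity)
  · exact div_le_div_of_nonneg_right hKK hN.le
  · obtain ⟨j, h1, h2, h3⟩ := h.gap i₁ i₂ τ hw
    exact ⟨j, h1, h2, hinv.trans h3⟩

/-- **D2** the cells: measurable, pairwise disjoint, `⋃ = Ico 0 1`, volume `2^{-Q}`, midpoint within `2^{-Q}/2`, contained in `[0,1]`. -/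
theorem k3a_cell_facts (Q : ℕ) :
    (∀ τ, MeasurableSet (k3aCell Q τ)) ∧ (∀ τ τ', τ ≠ τ' → Disjoint (k3aCell Q τ) (k3aCell Q τ')) ∧ (⋃ τ, k3aCell Q τ) = Ico (0 : ℝ) 1 ∧
      (∀ τ, volume (k3aCell Q τ) = ENNReal.ofReal (1 / 2 ^ Q)) ∧ (∀ τ, k3aTt Q τ ∈ Icc (0 : ℝ) 1) ∧
      ∀ τ, ∀ t ∈ k3aCell Q τ, t ∈ Icc (0 : ℝ) 1 ∧ |t - k3aTt Q τ| ≤ 1 / 2 ^ Q := by
  have hP : (0 : ℝ) < 2 ^ Q := by positivity
  have hlt : ∀ τ : Fin (2 ^ Q), ((τ : ℕ) : ℝ) + 1 ≤ 2 ^ Q := by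
    intro τ
    have : (τ : ℕ) + 1 ≤ 2 ^ Q := τ.2
    exact_mod_cast this
  have hdis : ∀ τ τ' : Fin (2 ^ Q), τ < τ' → Disjoint (k3aCell Q τ) (k3aCell Q τ') := by
    intro τ τ' h
    rw [Set.disjoint_left]
    rintro t ⟨-, h1⟩ ⟨h2, -⟩
    have h3 : ((τ : ℕ) : ℝ) + 1 ≤ ((τ' : ℕ) : ℝ) := by
      have : (τ : ℕ) + 1 ≤ (τ' : ℕ) := h
      exact_mod_cast this
    have h4 : (((τ : ℕ) : ℝ) + 1) / 2 ^ Q ≤ ((τ' : ℕ) : ℝ) / 2 ^ Q := div_le_div_of_nonneg_right h3 hP.le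
    linarith
  have hin : ∀ τ, ∀ t ∈ k3aCell Q τ, 0 ≤ t ∧ t < 1 := by
    rintro τ t ⟨h1, h2⟩
    refine ⟨le_trans (by positivity) h1, lt_of_lt_of_le h2 ?_⟩
    rw [div_le_one hP]
    exact hlt τ
  refine ⟨fun τ => measurableSet_Ico, ?_, ?_, ?_, ?_, ?_⟩
  · intro τ τ' hne
    rcases lt_or_gt_of_ne hne with h | h
    · exact hdis τ τ' h
    · exact (hdis τ' τ h).symm
  · ext t
    simp only [mem_iUnion]
    constructor
    · rintro ⟨τ, ht⟩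
      exact hin τ t ht
    · rintro ⟨h0, h1⟩
      have hx : 0 ≤ t * 2 ^ Q := by positivity
      have hfl : ⌊t * 2 ^ Q⌋₊ < 2 ^ Q := by
        rw [Nat.floor_lt hx]
        push_cast
        nlinarith
      refine ⟨⟨⌊t * 2 ^ Q⌋₊, hfl⟩, ?_, ?_⟩
      · rw [div_le_iff₀ hP]
        exact Nat.floor_le hx
      · rw [lt_div_iff₀ hP]
        exact Nat.lt_floor_add_one _
  · intro τ
    unfold k3aCell
    rw [Real.volume_Ico]
    congr 1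
    ring
  · intro τ
    unfold k3aTt
    refine ⟨by positivity, ?_⟩
    rw [div_le_one hP]
    linarith [hlt τ]
  · rintro τ t ht
    refine ⟨⟨(hin τ t ht).1, (hin τ t ht).2.le⟩, ?_⟩
    obtain ⟨h1, h2⟩ := ht
    unfold k3aTt
    have e1 : (((τ : ℕ) : ℝ) + 1 / 2) / 2 ^ Q = ((τ : ℕ) : ℝ) / 2 ^ Q + 1 / 2 ^ Q / 2 := by ring
    have e2 : (((τ : ℕ) : ℝ) + 1) / 2 ^ Q = ((τ : ℕ) : ℝ) / 2 ^ Q + 1 / 2 ^ Q := by ring
    have hpos : (0 : ℝ) < 1 / 2 ^ Q := by positivity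
    rw [e1, abs_le]
    rw [e2] at h2
    constructor <;> linarith

/-- **D3** a jet moves by at most `K |t - t'|`  (`Convex.norm_image_sub_le_of_norm_hasDerivWithin_le` on `Icc 0 1`). -/
theorem k3a_jet_lip {ι : Type} {J : ℕ} {K : ℝ} {g : ι → ℕ → ℝ → ℝ} (h : K3aJet ι J K g) (i : ι) {j : ℕ} (hj : j ≤ J) {t t' : ℝ}
    (ht : t ∈ Icc (0 : ℝ) 1) (ht' : t' ∈ Icc (0 : ℝ) 1) : |g i j t - g i j t'| ≤ K * |t - t'| := by
  have := Convex.norm_image_sub_le_of_norm_hasDerivWithin_le (f := g i j) (f' := fun t => g i (j + 1) t) (C := K) (s := Icc (0 : ℝ) 1)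
    (fun x hx => h.der i j hj x hx) (fun x hx => by
      rw [Real.norm_eq_abs]
      exact h.bd i (j + 1) (by omega) x hx) (convex_Icc 0 1) ht' ht
  simpa only [Real.norm_eq_abs] using this

theorem k3a_disc_pt {μ : Measure ℝ} {p : ℝ → Prop} (h : ∀ᵐ t ∂μ, p t) {S : Set ℝ} (hS : μ S ≠ 0) : ∃ t ∈ S, p t := by
  by_contra hcon
  push Not at hcon
  exact hS (measure_mono_null (fun t ht => hcon t ht) h)

theorem k3a_disc_cell {μ : Measure ℝ} {c : ℝ} (h : μ ≤ ENNReal.ofReal c • volume.restrict (Icc (0 : ℝ) 1)) (Q : ℕ) (τ : Fin (2 ^ Q)) :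
    μ (k3aCell Q τ) ≤ ENNReal.ofReal c * ENNReal.ofReal (1 / 2 ^ Q) := by
  refine (h (k3aCell Q τ)).trans ?_
  rw [Measure.smul_apply, smul_eq_mul, ← (k3a_cell_facts Q).2.2.2.1 τ]
  exact mul_le_mul_right (Measure.restrict_apply_le _ _) _

theorem k3a_disc_univ {μ : Measure ℝ} {c : ℝ} (h : μ ≤ ENNReal.ofReal c • volume.restrict (Icc (0 : ℝ) 1)) (Q : ℕ) :
    μ univ = ∑ τ, μ (k3aCell Q τ) := by
  obtain ⟨f1, f2, f3, -⟩ := k3a_cell_facts Q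
  have h0 : μ (Ico (0 : ℝ) 1)ᶜ = 0 := by
    refine le_antisymm ((h _).trans ?_) zero_le
    rw [Measure.smul_apply, smul_eq_mul, Measure.restrict_apply measurableSet_Ico.compl]
    have : (Ico (0 : ℝ) 1)ᶜ ∩ Icc (0 : ℝ) 1 ⊆ {1} := by
      rintro t ⟨h1, h2⟩
      simp only [mem_compl_iff, mem_Ico, not_and, not_lt] at h1
      exact le_antisymm h2.2 (h1 h2.1)
    rw [measure_mono_null this (by simp), mul_zero]
  rw [← measure_add_measure_compl (measurableSet_Ico : MeasurableSet (Ico (0 : ℝ) 1)), h0, add_zero, ← f3,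
    measure_iUnion (fun τ τ' hne => f2 τ τ' hne) f1, tsum_fintype]

theorem k3a_disc_le₁ {ι₁ ι₂ : Type} [Fintype ι₁] [Fintype ι₂] {X : K3aMs ι₁ ι₂} {D J : ℕ} {d N K : ℝ} (h : X.Ok D J d N K) (i₁ : ι₁) (i₂ : ι₂) :
    X.pr i₁ i₂ ≤ ENNReal.ofReal (K * X.π₁ i₁) • volume.restrict (Icc (0 : ℝ) 1) := by
  refine le_trans ?_ (h.marg₁ i₁)
  intro S
  rw [Measure.finsetSum_apply]
  exact Finset.single_le_sum (f := fun i₂ => X.pr i₁ i₂ S) (fun _ _ => zero_le) (Finset.mem_univ i₂)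

theorem k3a_disc_marg {ι : Type} [Fintype ι] (pr : ι → Measure ℝ) {c : ℝ} (hc : 0 ≤ c)
    (h : ∑ i, pr i ≤ ENNReal.ofReal c • volume.restrict (Icc (0 : ℝ) 1)) (Q : ℕ) (τ : Fin (2 ^ Q)) :
    ∑ i, (pr i (k3aCell Q τ)).toReal ≤ c / 2 ^ Q := by
  have h1 := k3a_disc_cell h Q τ
  rw [Measure.finsetSum_apply] at h1
  have hfin : ∀ i ∈ Finset.univ, pr i (k3aCell Q τ) ≠ ⊤ := by
    intro i hi
    refine ne_top_of_le_ne_top ?_ ((Finset.single_le_sum (f := fun i => pr i (k3aCell Q τ)) (fun _ _ => zero_le) hi).trans h1)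
    exact ENNReal.mul_ne_top ENNReal.ofReal_ne_top ENNReal.ofReal_ne_top
  rw [← ENNReal.toReal_sum hfin]
  have h2 := ENNReal.toReal_mono (ENNReal.mul_ne_top ENNReal.ofReal_ne_top ENNReal.ofReal_ne_top) h1
  rw [ENNReal.toReal_mul, ENNReal.toReal_ofReal hc, ENNReal.toReal_ofReal (by positivity)] at h2
  refine h2.trans (le_of_eq ?_)
  ring

/-- **D4** the discretisation of an admissible configuration is admissible with slack `2 K`, if the mesh is `≤ 1/(4 K² N)`.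
PLAN.  All `pr i₁ i₂` are finite and vanish outside `Icc 0 1` and on `{1}` (`marg₁`, one term of the sum).
`marg` : `∑_{i₂} pr i₁ i₂ (cell) ≤ K π₁ i₁ 2^{-Q}` (`Measure.finset_sum_apply`, `ENNReal.toReal_sum`, `ENNReal.toReal_mono`).
`mass` : `pr i₁ i₂ univ = ∑_τ pr i₁ i₂ (cell τ)` (`measure_iUnion`/`measure_biUnion_finset`, the complement of `Ico 0 1` is null).
`close`, `gap` : `w ≠ 0` gives `pr i₁ i₂ (cell τ) ≠ 0`, so the a.e. event holds at some `t ∈ cell τ` (otherwise the cell is contained in a null set); move to the midpoint by `k3a_jet_lip` (`j ≤ D < J`):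
`K/N + 2 K 2^{-Q} ≤ 2 K / N`,   `1/K - 2 K 2^{-Q} ≥ 1/(2 K)`. -/
theorem K3aMs.Ok.disc {ι₁ ι₂ : Type} [Fintype ι₁] [Fintype ι₂] {X : K3aMs ι₁ ι₂} {D J : ℕ} {d N K : ℝ} (h : X.Ok D J d N K)
    (hDJ : D < J) (hN : 1 ≤ N) (hK : 1 ≤ K) {Q : ℕ} (hQ : 4 * K ^ 2 * N ≤ (2 : ℝ) ^ Q) : (X.disc Q).Ok D J d N (2 * K) := by
  have hK0 : 0 < K := by linarith
  have hN0 : 0 < N := by linarith
  have hP : (0 : ℝ) < 2 ^ Q := by positivity
  have hKK : K ≤ 2 * K := by linarith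
  obtain ⟨f1, f2, f3, f4, f5, f6⟩ := k3a_cell_facts Q
  -- the mesh
  have hmesh : 2 * K * (1 / 2 ^ Q) ≤ 1 / (2 * K * N) := by
    rw [mul_one_div, div_le_div_iff₀ hP (by positivity)]
    calc 2 * K * (2 * K * N) = 4 * K ^ 2 * N := by ring
      _ ≤ 2 ^ Q := hQ
      _ = 1 * 2 ^ Q := by ring
  have hfin : ∀ i₁ i₂ τ, X.pr i₁ i₂ (k3aCell Q τ) ≠ ⊤ := fun i₁ i₂ τ =>
    ne_top_of_le_ne_top (ENNReal.mul_ne_top ENNReal.ofReal_ne_top ENNReal.ofReal_ne_top) (k3a_disc_cell (k3a_disc_le₁ h i₁ i₂) Q τ)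
  -- the point of the cell
  have hpt : ∀ i₁ i₂ τ, (X.disc Q).w i₁ i₂ τ ≠ 0 → ∃ t ∈ k3aCell Q τ, |X.g₁ i₁ 0 t - X.g₂ i₂ 0 t| ≤ K / N ∧
      ∃ j, 1 ≤ j ∧ j ≤ D ∧ 1 / K ≤ |X.g₁ i₁ j t - X.g₂ i₂ j t| := by
    intro i₁ i₂ τ hw
    refine k3a_disc_pt (h.ev i₁ i₂) ?_
    intro h0
    apply hw
    change (X.pr i₁ i₂ (k3aCell Q τ)).toReal = 0
    rw [h0]
    rfl
  -- moving to the midpoint
  have hmove : ∀ i₁ i₂ τ, ∀ t ∈ k3aCell Q τ, ∀ j ≤ J,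
      |(X.g₁ i₁ j t - X.g₂ i₂ j t) - (X.g₁ i₁ j (k3aTt Q τ) - X.g₂ i₂ j (k3aTt Q τ))| ≤ 1 / (2 * K * N) := by
    intro i₁ i₂ τ t ht j hj
    obtain ⟨ht1, ht2⟩ := f6 τ t ht
    have a1 := k3a_jet_lip h.jet₁ i₁ hj ht1 (f5 τ)
    have a2 := k3a_jet_lip h.jet₂ i₂ hj ht1 (f5 τ)
    have a3 : K * |t - k3aTt Q τ| ≤ K * (1 / 2 ^ Q) := mul_le_mul_of_nonneg_left ht2 hK0.le
    have e : (X.g₁ i₁ j t - X.g₂ i₂ j t) - (X.g₁ i₁ j (k3aTt Q τ) - X.g₂ i₂ j (k3aTt Q τ))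
        = (X.g₁ i₁ j t - X.g₁ i₁ j (k3aTt Q τ)) - (X.g₂ i₂ j t - X.g₂ i₂ j (k3aTt Q τ)) := by ring
    rw [e]
    refine (abs_sub _ _).trans ?_
    linarith
  refine ⟨h.card₁.trans (mul_le_mul_of_nonneg_right hKK (Real.rpow_nonneg hN0.le d)), k3a_jet_mono h.jet₁ hKK, k3a_jet_mono h.jet₂ hKK,
    h.π₁_nonneg, h.π₂_nonneg, h.π₁_sum, h.π₂_sum, fun _ _ _ => ENNReal.toReal_nonneg, fun i₁ τ => ?_, fun i₂ τ => ?_, ?_,
    fun i₁ i₂ τ hw => ?_, fun i₁ i₂ τ hw => ?_⟩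
  · refine (k3a_disc_marg (fun i₂ => X.pr i₁ i₂) (mul_nonneg hK0.le (h.π₁_nonneg i₁)) (h.marg₁ i₁) Q τ).trans ?_
    exact div_le_div_of_nonneg_right (mul_le_mul_of_nonneg_right hKK (h.π₁_nonneg i₁)) hP.le
  · refine (k3a_disc_marg (fun i₁ => X.pr i₁ i₂) (mul_nonneg hK0.le (h.π₂_nonneg i₂)) (h.marg₂ i₂) Q τ).trans ?_
    exact div_le_div_of_nonneg_right (mul_le_mul_of_nonneg_right hKK (h.π₂_nonneg i₂)) hP.le
  · have e : ∑ i₁, ∑ i₂, ∑ τ, (X.disc Q).w i₁ i₂ τ = (∑ i₁, ∑ i₂, X.pr i₁ i₂ univ).toReal := by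
      have e1 : ∀ i₁ i₂, X.pr i₁ i₂ univ = ∑ τ, X.pr i₁ i₂ (k3aCell Q τ) := fun i₁ i₂ => k3a_disc_univ (k3a_disc_le₁ h i₁ i₂) Q
      have hf1 : ∀ i₁ i₂, ∑ τ, X.pr i₁ i₂ (k3aCell Q τ) ≠ ⊤ := fun i₁ i₂ => ENNReal.sum_ne_top.2 (fun τ _ => hfin i₁ i₂ τ)
      have hf2 : ∀ i₁, ∑ i₂, ∑ τ, X.pr i₁ i₂ (k3aCell Q τ) ≠ ⊤ := fun i₁ => ENNReal.sum_ne_top.2 (fun i₂ _ => hf1 i₁ i₂)
      simp only [e1]
      rw [ENNReal.toReal_sum (fun i₁ _ => hf2 i₁)]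
      refine Finset.sum_congr rfl fun i₁ _ => ?_
      rw [ENNReal.toReal_sum (fun i₂ _ => hf1 i₁ i₂)]
      refine Finset.sum_congr rfl fun i₂ _ => ?_
      rw [ENNReal.toReal_sum (fun τ _ => hfin i₁ i₂ τ)]
      rfl
    rw [e]
    have hft : ∑ i₁, ∑ i₂, X.pr i₁ i₂ univ ≠ ⊤ := by
      refine ENNReal.sum_ne_top.2 fun i₁ _ => ENNReal.sum_ne_top.2 fun i₂ _ => ?_
      rw [k3a_disc_univ (k3a_disc_le₁ h i₁ i₂) Q]
      exact ENNReal.sum_ne_top.2 (fun τ _ => hfin i₁ i₂ τ)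
    have h1 := ENNReal.toReal_mono hft h.mass
    rw [ENNReal.toReal_ofReal (by positivity)] at h1
    exact (one_div_le_one_div_of_le hK0 hKK).trans h1
  · obtain ⟨t, ht, hc, -⟩ := hpt i₁ i₂ τ hw
    have hm := hmove i₁ i₂ τ t ht 0 (Nat.zero_le _)
    have h1 : |X.g₁ i₁ 0 (k3aTt Q τ) - X.g₂ i₂ 0 (k3aTt Q τ)| ≤ K / N + 1 / (2 * K * N) := by
      have := abs_sub_abs_le_abs_sub (X.g₁ i₁ 0 (k3aTt Q τ) - X.g₂ i₂ 0 (k3aTt Q τ)) (X.g₁ i₁ 0 t - X.g₂ i₂ 0 t)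
      rw [abs_sub_comm (X.g₁ i₁ 0 (k3aTt Q τ) - X.g₂ i₂ 0 (k3aTt Q τ)) (X.g₁ i₁ 0 t - X.g₂ i₂ 0 t)] at this
      linarith
    refine h1.trans ?_
    have h2 : 1 / (2 * K * N) ≤ K / N := by
      rw [div_le_div_iff₀ (by positivity) hN0]
      nlinarith [mul_pos hK0 hN0, mul_le_mul hK hK zero_le_one hK0.le]
    have e : 2 * K / N = K / N + K / N := by ring
    change _ ≤ 2 * K / N
    rw [e]
    linarith
  · obtain ⟨t, ht, -, j, hj1, hj2, hg⟩ := hpt i₁ i₂ τ hw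
    refine ⟨j, hj1, hj2, ?_⟩
    have hm := hmove i₁ i₂ τ t ht j (by omega)
    have h1 : 1 / K - 1 / (2 * K * N) ≤ |X.g₁ i₁ j (k3aTt Q τ) - X.g₂ i₂ j (k3aTt Q τ)| := by
      have := abs_sub_abs_le_abs_sub (X.g₁ i₁ j t - X.g₂ i₂ j t) (X.g₁ i₁ j (k3aTt Q τ) - X.g₂ i₂ j (k3aTt Q τ))
      linarith
    refine le_trans ?_ h1
    have h2 : 1 / (2 * K * N) ≤ 1 / (2 * K) := by
      apply one_div_le_one_div_of_le (by positivity)
      exact le_mul_of_one_le_right (by positivity) hN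
    have e : 1 / K = 1 / (2 * K) + 1 / (2 * K) := by
      field_simp
      ring
    rw [e]
    linarith

/-- **D5** the measure form follows from the finite form.
PLAN.  `ε, N₁, A` from the finite form; take `ε' = ε / 2`, `N₁' = max N₁ (max 1 (2^(2/ε)))`.   For `N ≥ N₁'`, `K = N^ε' ≥ 1`: `2 ≤ N^(ε/2)`, so `2 K ≤ N^ε`;  choose `Q` with `max (N^A) (4 K² N) ≤ 2^Q` (`pow_unbounded_of_one_lt`);
`K3aMs.Ok.disc`, `K3aFin.Ok.mono`. -/
theorem k3a_meas_of_fin {D J : ℕ} (hDJ : D < J) {d₀ : ℝ} (h : K3aFinStmt D J d₀) : K3aMsStmt D J d₀ := by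
  obtain ⟨ε, hε, N₁, A, hfin⟩ := h
  refine ⟨ε / 2, by positivity, max N₁ (max 1 ((2 : ℝ) ^ (2 / ε))), ?_⟩
  intro N hN ι₁ ι₂ _ _ X hX
  have hN1 : N₁ ≤ N := le_trans (le_max_left _ _) hN
  have hN2 : 1 ≤ N := le_trans (le_trans (le_max_left _ _) (le_max_right _ _)) hN
  have hN3 : (2 : ℝ) ^ (2 / ε) ≤ N := le_trans (le_trans (le_max_right _ _) (le_max_right _ _)) hN
  have hN0 : 0 < N := by linarith
  have hK1 : 1 ≤ N ^ (ε / 2) := Real.one_le_rpow hN2 (by positivity)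
  have h2 : 2 ≤ N ^ (ε / 2) := by
    calc (2 : ℝ) = ((2 : ℝ) ^ (2 / ε)) ^ (ε / 2) := by
          rw [← Real.rpow_mul (by norm_num)]
          have : 2 / ε * (ε / 2) = 1 := by field_simp
          rw [this, Real.rpow_one]
      _ ≤ N ^ (ε / 2) := Real.rpow_le_rpow (by positivity) hN3 (by positivity)
  have h2K : 2 * N ^ (ε / 2) ≤ N ^ ε := by
    calc 2 * N ^ (ε / 2) ≤ N ^ (ε / 2) * N ^ (ε / 2) := by gcongr
      _ = N ^ ε := by rw [← Real.rpow_add hN0]; congr 1; ring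
  obtain ⟨Q, hQ⟩ := pow_unbounded_of_one_lt (max (N ^ A) (4 * (N ^ (ε / 2)) ^ 2 * N)) (by norm_num : (1 : ℝ) < 2)
  have hQ1 : N ^ A ≤ (2 : ℝ) ^ Q := le_trans (le_max_left _ _) hQ.le
  have hQ2 : 4 * (N ^ (ε / 2)) ^ 2 * N ≤ (2 : ℝ) ^ Q := le_trans (le_max_right _ _) hQ.le
  have h3 := hX.disc hDJ hN2 hK1 hQ2
  exact hfin N hN1 Q hQ1 ι₁ ι₂ (X.disc Q) (h3.mono hN0 (by positivity) h2K)

/-! ## 4. The density form -/

/-- the measure configuration of a density configuration. -/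
noncomputable def K3aCfg.toMs {ι₁ ι₂ : Type} (X : K3aCfg ι₁ ι₂) : K3aMs ι₁ ι₂ where
  g₁ := X.g₁
  g₂ := X.g₂
  π₁ := X.π₁
  π₂ := X.π₂
  pr := fun i₁ i₂ => volume.withDensity fun t => ENNReal.ofReal (X.ρ i₁ i₂ t)

/-- **D6**  PLAN.  `marg` : `∑ withDensity = withDensity ∑` (`withDensity_finset_sum` or evaluate on a measurable set: `withDensity_apply`, `lintegral_finset_sum`), the sum of the densities is `≤ K π` and vanishes off `Icc 0 1`.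
`mass` : `withDensity_apply _ MeasurableSet.univ`, `ofReal_integral_eq_lintegral_ofReal` (the densities are bounded with bounded support, hence integrable), `ENNReal.ofReal_sum_of_nonneg`.
`ev` : `ae_withDensity_iff` : a.e. on `{ρ ≠ 0}`. -/
theorem K3aCfg.Ok.toMs {ι₁ ι₂ : Type} [Fintype ι₁] [Fintype ι₂] {X : K3aCfg ι₁ ι₂} {D J : ℕ} {d N K : ℝ} (h : X.Ok D J d N K) (hK : 0 < K) :
    X.toMs.Ok D J d N K := by
  classical
  have hmeas : ∀ i₁ i₂, Measurable fun t => ENNReal.ofReal (X.ρ i₁ i₂ t) := fun i₁ i₂ => (h.ρ_meas i₁ i₂).ennreal_ofReal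
  -- general marginal bound
  have hmarg : ∀ {ι : Type} [Fintype ι] (f : ι → ℝ → ℝ) (c : ℝ), (∀ i, Measurable (f i)) → (∀ i t, 0 ≤ f i t) →
      (∀ i t, t ∉ Icc (0 : ℝ) 1 → f i t = 0) → (∀ t, ∑ i, f i t ≤ c) →
      ∑ i, volume.withDensity (fun t => ENNReal.ofReal (f i t)) ≤ ENNReal.ofReal c • volume.restrict (Icc (0 : ℝ) 1) := by
    intro ι _ f c hm hnn hsupp hle
    rw [Measure.le_iff]
    intro S hS
    rw [Measure.finsetSum_apply, Measure.smul_apply, smul_eq_mul, Measure.restrict_apply hS]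
    simp_rw [withDensity_apply _ hS]
    rw [← lintegral_finsetSum _ (fun i _ => (hm i).ennreal_ofReal)]
    calc ∫⁻ t in S, ∑ i, ENNReal.ofReal (f i t)
        ≤ ∫⁻ t in S, (Icc (0 : ℝ) 1).indicator (fun _ => ENNReal.ofReal c) t := by
          apply lintegral_mono
          intro t
          beta_reduce
          by_cases ht : t ∈ Icc (0 : ℝ) 1
          · rw [indicator_of_mem ht, ← ENNReal.ofReal_sum_of_nonneg (fun i _ => hnn i t)]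
            exact ENNReal.ofReal_le_ofReal (hle t)
          · rw [indicator_of_notMem ht]
            refine le_of_eq (Finset.sum_eq_zero ?_)
            intro i _
            rw [hsupp i t ht, ENNReal.ofReal_zero]
      _ = ENNReal.ofReal c * volume (S ∩ Icc (0 : ℝ) 1) := by
          rw [lintegral_indicator_const measurableSet_Icc, Measure.restrict_apply measurableSet_Icc, inter_comm]
  refine ⟨h.card, h.jet₁, h.jet₂, h.π₁_nonneg, h.π₂_nonneg, h.π₁_sum, h.π₂_sum, ?_, ?_, ?_, ?_⟩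
  · intro i₁
    exact hmarg (fun i₂ => X.ρ i₁ i₂) _ (fun i₂ => h.ρ_meas i₁ i₂) (fun i₂ => h.ρ_nonneg i₁ i₂)
      (fun i₂ => h.ρ_supp i₁ i₂) (h.marg₁ i₁)
  · intro i₂
    exact hmarg (fun i₁ => X.ρ i₁ i₂) _ (fun i₁ => h.ρ_meas i₁ i₂) (fun i₁ => h.ρ_nonneg i₁ i₂)
      (fun i₁ => h.ρ_supp i₁ i₂) (h.marg₂ i₂)
  · have hint : ∀ i₁ i₂, IntegrableOn (X.ρ i₁ i₂) (Icc (0 : ℝ) 1) volume := by
      intro i₁ i₂
      refine Measure.integrableOn_of_bounded (M := K * X.π₁ i₁) (by simp) (h.ρ_meas i₁ i₂).aestronglyMeasurable ?_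
      refine Filter.Eventually.of_forall (fun t => ?_)
      rw [Real.norm_eq_abs, abs_of_nonneg (h.ρ_nonneg i₁ i₂ t)]
      exact le_trans (Finset.single_le_sum (f := fun i₂ => X.ρ i₁ i₂ t) (fun i _ => h.ρ_nonneg i₁ i t) (Finset.mem_univ i₂))
        (h.marg₁ i₁ t)
    have hterm : ∀ i₁ i₂, ENNReal.ofReal (∫ t in Icc (0 : ℝ) 1, X.ρ i₁ i₂ t) ≤ X.toMs.pr i₁ i₂ univ := by
      intro i₁ i₂
      show _ ≤ (volume.withDensity fun t => ENNReal.ofReal (X.ρ i₁ i₂ t)) univ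
      rw [withDensity_apply _ MeasurableSet.univ, Measure.restrict_univ,
        ofReal_integral_eq_lintegral_ofReal (hint i₁ i₂) (Filter.Eventually.of_forall (h.ρ_nonneg i₁ i₂))]
      exact setLIntegral_le_lintegral _ _
    have hnn : ∀ i₁ i₂, 0 ≤ ∫ t in Icc (0 : ℝ) 1, X.ρ i₁ i₂ t := fun i₁ i₂ => integral_nonneg (h.ρ_nonneg i₁ i₂)
    calc ENNReal.ofReal (1 / K) ≤ ENNReal.ofReal (∑ i₁, ∑ i₂, ∫ t in Icc (0 : ℝ) 1, X.ρ i₁ i₂ t) :=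
          ENNReal.ofReal_le_ofReal h.mass
      _ = ∑ i₁, ∑ i₂, ENNReal.ofReal (∫ t in Icc (0 : ℝ) 1, X.ρ i₁ i₂ t) := by
          rw [ENNReal.ofReal_sum_of_nonneg (fun i₁ _ => Finset.sum_nonneg (fun i₂ _ => hnn i₁ i₂))]
          refine Finset.sum_congr rfl (fun i₁ _ => ?_)
          rw [ENNReal.ofReal_sum_of_nonneg (fun i₂ _ => hnn i₁ i₂)]
      _ ≤ ∑ i₁, ∑ i₂, X.toMs.pr i₁ i₂ univ :=
          Finset.sum_le_sum (fun i₁ _ => Finset.sum_le_sum (fun i₂ _ => hterm i₁ i₂))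
  · intro i₁ i₂
    show ∀ᵐ t ∂(volume.withDensity fun t => ENNReal.ofReal (X.ρ i₁ i₂ t)), _
    rw [ae_withDensity_iff (hmeas i₁ i₂)]
    refine Filter.Eventually.of_forall (fun t ht => ?_)
    have hρ : X.ρ i₁ i₂ t ≠ 0 := by
      intro h0
      exact ht (by rw [h0, ENNReal.ofReal_zero])
    exact ⟨h.close i₁ i₂ t hρ, h.gap i₁ i₂ t hρ⟩

end Claimed.Agent.R252

end PkS3aExit

section PkS3mDisc

/-!
# ROW 252, unit S3m (L3.3 two-colour matching), file Disc: FROM THE DISCRETE EXIT `K3mDiscrete` TO THE FINITE FORM `K3aFinStmt` OF `S3a/Exit.lean`.     CONTRACT (architect helper10; the `sorry`s are the leaves L-252-K3M-X*)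

PAPER-FREE bookkeeping.   A finite configuration `X : K3aFin ι₁ ι₂ Q` (index TYPES `ι₁`, `ι₂`, cells `τ : Fin (2^Q)`, events read at the MIDPOINTS `(τ + 1/2)/2^Q`, unnormalised weights `w`) is turned into
`X.dat J N K : K3mDat (ι₁ × ι₂ × Fin (2^Q))`:   indices through `Fintype.equivFin`, lists extended by `0` (`k3mExt`),   `kT = Q + 1`, `tc ω = 2 τ + 1`  (so that `tm (tc ω) = (2τ+1)/2^(Q+1)` IS the midpoint),   `p = w / total`.
Slack: `K ↦ 2 K²`  (`total ≥ 1/K`; the cells of level `Q + 1` are half as long).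
-/

set_option autoImplicit false
set_option linter.unusedSectionVars false

namespace Claimed.Agent.R252

open scoped BigOperators Nat
open Finset

noncomputable section

/-- extension by zero to `ℕ` of a family indexed by a finite type -/
def k3mExt {ι α : Type} [Fintype ι] [Zero α] (f : ι → α) (i : ℕ) : α :=
  if h : i < Fintype.card ι then f ((Fintype.equivFin ι).symm ⟨i, h⟩) else 0

variable {ι₁ ι₂ : Type} [Fintype ι₁] [Fintype ι₂] {Q : ℕ}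

/-- total weight -/
def K3aFin.tot (X : K3aFin ι₁ ι₂ Q) : ℝ := ∑ i₁, ∑ i₂, ∑ τ, X.w i₁ i₂ τ

/-- the discrete configuration of a finite configuration -/
def K3aFin.dat (X : K3aFin ι₁ ι₂ Q) (J : ℕ) (N K : ℝ) : K3mDat (ι₁ × ι₂ × Fin (2 ^ Q)) where
  J := J
  n := 1
  kT := Q + 1
  N := N
  K := K
  η := 1
  β := fun _ => 0
  nn := fun col => if col then Fintype.card ι₁ else Fintype.card ι₂
  idx := fun col ω => if col then (Fintype.equivFin ι₁ ω.1 : ℕ) else (Fintype.equivFin ι₂ ω.2.1 : ℕ)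
  tc := fun ω => 2 * (ω.2.2 : ℕ) + 1
  F := fun col i => if col then k3mExt X.g₁ i else k3mExt X.g₂ i
  π := fun col i => if col then k3mExt X.π₁ i else k3mExt X.π₂ i
  p := fun ω => X.w ω.1 ω.2.1 ω.2.2 / X.tot

theorem k3m_disc_eqns_cite : True := by
  have := @k3mExt.eq_1
  have := @K3aFin.tot.eq_1
  have := @K3aFin.dat.eq_1
  trivial

/-! ## 1. the extension by zero      (leaf L-252-K3M-X1) -/

theorem k3mExt_equiv {ι α : Type} [Fintype ι] [Zero α] (f : ι → α) (i : ι) : k3mExt f (Fintype.equivFin ι i : ℕ) = f i := by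
  have h : ((Fintype.equivFin ι i : Fin _) : ℕ) < Fintype.card ι := (Fintype.equivFin ι i).2
  unfold k3mExt
  rw [dif_pos h]
  congr 1
  exact (Fintype.equivFin ι).symm_apply_apply i

theorem k3mExt_of_ge {ι α : Type} [Fintype ι] [Zero α] (f : ι → α) {i : ℕ} (h : Fintype.card ι ≤ i) : k3mExt f i = 0 := by
  unfold k3mExt
  rw [dif_neg (not_lt.mpr h)]

/-- every value is a value of `f` or `0` -/
theorem k3mExt_cases {ι α : Type} [Fintype ι] [Zero α] (f : ι → α) (i : ℕ) : (∃ x, (Fintype.equivFin ι x : ℕ) = i ∧ k3mExt f i = f x) ∨ (Fintype.card ι ≤ i ∧ k3mExt f i = 0) := by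
  by_cases h : i < Fintype.card ι
  · left
    refine ⟨(Fintype.equivFin ι).symm ⟨i, h⟩, by simp, ?_⟩
    unfold k3mExt
    rw [dif_pos h]
  · right
    exact ⟨not_lt.mp h, k3mExt_of_ge f (not_lt.mp h)⟩

/-- (`Finset.sum_range`, `Equiv.sum_comp (Fintype.equivFin ι)`) -/
theorem k3mExt_sum {ι : Type} [Fintype ι] (f : ι → ℝ) : ∑ i ∈ range (Fintype.card ι), k3mExt f i = ∑ x, f x := by
  rw [Finset.sum_range, ← Equiv.sum_comp (Fintype.equivFin ι)]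
  refine Finset.sum_congr rfl fun x _ => ?_
  exact k3mExt_equiv f x

/-! ## 2. the fields of `Raw`      (leaves L-252-K3M-X2, X3) -/

/-- the time of an event is the midpoint of its cell -/
theorem K3aFin.dat_tm (X : K3aFin ι₁ ι₂ Q) (J : ℕ) (N K : ℝ) (ω : ι₁ × ι₂ × Fin (2 ^ Q)) :
    (X.dat J N K).tm ((X.dat J N K).tc ω) = k3aTt Q ω.2.2 := by
  show (((2 * (ω.2.2 : ℕ) + 1 : ℕ) : ℝ)) / 2 ^ (Q + 1) = ((ω.2.2 : ℕ) + 1 / 2) / 2 ^ Q
  have h2 : (0:ℝ) < 2 ^ Q := by positivity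
  push_cast
  rw [pow_succ]
  field_simp

theorem K3aFin.dat_arm_true (X : K3aFin ι₁ ι₂ Q) (J : ℕ) (N K : ℝ) (ω : ι₁ × ι₂ × Fin (2 ^ Q)) : (X.dat J N K).arm true ω = X.g₁ ω.1 := by
  show k3mExt X.g₁ (Fintype.equivFin ι₁ ω.1 : ℕ) = X.g₁ ω.1
  exact k3mExt_equiv _ _

theorem K3aFin.dat_arm_false (X : K3aFin ι₁ ι₂ Q) (J : ℕ) (N K : ℝ) (ω : ι₁ × ι₂ × Fin (2 ^ Q)) : (X.dat J N K).arm false ω = X.g₂ ω.2.1 := by
  show k3mExt X.g₂ (Fintype.equivFin ι₂ ω.2.1 : ℕ) = X.g₂ ω.2.1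
  exact k3mExt_equiv _ _

theorem K3aFin.dat_gap (X : K3aFin ι₁ ι₂ Q) (J : ℕ) (N K : ℝ) (j : ℕ) (ω : ι₁ × ι₂ × Fin (2 ^ Q)) :
    (X.dat J N K).gap j ω = |X.g₁ ω.1 j (k3aTt Q ω.2.2) - X.g₂ ω.2.1 j (k3aTt Q ω.2.2)| := by
  unfold K3mDat.gap
  rw [K3aFin.dat_arm_true, K3aFin.dat_arm_false, K3aFin.dat_tm]

theorem k3m_tot_pos {X : K3aFin ι₁ ι₂ Q} {D J : ℕ} {d N K : ℝ} (h : X.Ok D J d N K) (hK : 0 < K) : 0 < X.tot :=
  lt_of_lt_of_le (by positivity) h.mass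

/-- (`Fintype.sum_prod_type`; `tot ≥ 1/K > 0`) -/
theorem K3aFin.dat_law {X : K3aFin ι₁ ι₂ Q} {D J : ℕ} {d N K : ℝ} (h : X.Ok D J d N K) (hK : 0 < K) (K' : ℝ) : K3mLaw (X.dat J N K').p := by
  have ht : 0 < X.tot := k3m_tot_pos h hK
  refine ⟨fun ω => div_nonneg (h.w_nonneg _ _ _) ht.le, ?_⟩
  show ∑ ω : ι₁ × ι₂ × Fin (2 ^ Q), X.w ω.1 ω.2.1 ω.2.2 / X.tot = 1
  rw [← Finset.sum_div, Fintype.sum_prod_type]
  simp_rw [Fintype.sum_prod_type]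
  exact div_self ht.ne'

theorem k3mExt_nonneg {ι : Type} [Fintype ι] {f : ι → ℝ} (hf : ∀ x, 0 ≤ f x) (i : ℕ) : 0 ≤ k3mExt f i := by
  rcases k3mExt_cases f i with ⟨x, _, hx⟩ | ⟨_, h0⟩
  · rw [hx]; exact hf x
  · rw [h0]

theorem k3m_P_fib₁ (p : ι₁ × ι₂ × Fin (2 ^ Q) → ℝ) (x : ι₁) (τ : Fin (2 ^ Q)) :
    k3mP p {ω | ω.1 = x ∧ ω.2.2 = τ} = ∑ i₂, p (x, i₂, τ) := by
  classical
  unfold k3mP
  rw [Fintype.sum_prod_type, Finset.sum_eq_single x]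
  · rw [Fintype.sum_prod_type]
    refine Finset.sum_congr rfl fun i₂ _ => ?_
    rw [Finset.sum_eq_single τ]
    · simp [Set.indicator]
    · intro b _ hb
      simp [Set.indicator, hb]
    · intro h
      exact absurd (Finset.mem_univ _) h
  · intro b _ hb
    apply Finset.sum_eq_zero
    intro y _
    simp [Set.indicator, hb]
  · intro h
    exact absurd (Finset.mem_univ _) h

theorem k3m_P_fib₂ (p : ι₁ × ι₂ × Fin (2 ^ Q) → ℝ) (x : ι₂) (τ : Fin (2 ^ Q)) :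
    k3mP p {ω | ω.2.1 = x ∧ ω.2.2 = τ} = ∑ i₁, p (i₁, x, τ) := by
  classical
  unfold k3mP
  rw [Fintype.sum_prod_type]
  refine Finset.sum_congr rfl fun i₁ _ => ?_
  rw [Fintype.sum_prod_type, Finset.sum_eq_single x]
  · rw [Finset.sum_eq_single τ]
    · simp [Set.indicator]
    · intro b _ hb
      simp [Set.indicator, hb]
    · intro h
      exact absurd (Finset.mem_univ _) h
  · intro b _ hb
    apply Finset.sum_eq_zero
    intro y _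
    simp [Set.indicator, hb]
  · intro h
    exact absurd (Finset.mem_univ _) h

theorem k3m_marg_aux {S tot K π : ℝ} {Q : ℕ} (hK : 1 ≤ K) (hπ : 0 ≤ π) (hS : S ≤ K * π / 2 ^ Q) (ht : 1 / K ≤ tot) :
    S / tot ≤ (2 * K ^ 2) * π / 2 ^ (Q + 1) := by
  have hK0 : 0 < K := by linarith
  have ht0 : 0 < tot := lt_of_lt_of_le (by positivity) ht
  have h1 : 1 / tot ≤ K := by
    rw [div_le_iff₀ ht0]
    rw [div_le_iff₀ hK0] at ht
    linarith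
  have hB : 0 ≤ K * π / 2 ^ Q := by positivity
  calc S / tot ≤ (K * π / 2 ^ Q) / tot := by gcongr
    _ = (K * π / 2 ^ Q) * (1 / tot) := by ring
    _ ≤ (K * π / 2 ^ Q) * K := by gcongr
    _ = (2 * K ^ 2) * π / 2 ^ (Q + 1) := by
        rw [pow_succ (2 : ℝ) Q]
        field_simp

/-- **X3** the marginals.   `col = true`: by `k3mExt_cases` either `i = equivFin i₁`, or `card ι₁ ≤ i` and the event is empty.   If `c = 2 τ + 1` with `τ < 2^Q` the event is `{ω | ω.1 = i₁ ∧ ω.2.2 = τ}`, of probability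
`(∑_{i₂} w i₁ i₂ τ)/tot ≤ (K π₁ i₁ / 2^Q) K = 2 K² π₁ i₁ / 2^(Q+1)`  (`1/tot ≤ K`);   otherwise it is empty (parity, range).   The same for `col = false`.   `k3mP` of the empty event is `0 ≤` the right side. -/
theorem K3aFin.dat_marg {X : K3aFin ι₁ ι₂ Q} {D J : ℕ} {d N K : ℝ} (h : X.Ok D J d N K) (hK : 1 ≤ K) (col : Bool) (i c : ℕ) :
    k3mP (X.dat J N (2 * K ^ 2)).p {ω | (X.dat J N (2 * K ^ 2)).idx col ω = i ∧ (X.dat J N (2 * K ^ 2)).tc ω = c}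
      ≤ (2 * K ^ 2) * (X.dat J N (2 * K ^ 2)).π col i / 2 ^ (Q + 1) := by
  have hK0 : 0 < K := by linarith
  have hlaw : K3mLaw (X.dat J N (2 * K ^ 2)).p := K3aFin.dat_law h hK0 _
  cases col with
  | true =>
    show k3mP (X.dat J N (2 * K ^ 2)).p {ω | (Fintype.equivFin ι₁ ω.1 : ℕ) = i ∧ 2 * (ω.2.2 : ℕ) + 1 = c}
      ≤ (2 * K ^ 2) * k3mExt X.π₁ i / 2 ^ (Q + 1)
    have hr : 0 ≤ (2 * K ^ 2) * k3mExt X.π₁ i / 2 ^ (Q + 1) := by
      have := k3mExt_nonneg h.π₁_nonneg i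
      positivity
    rcases k3mExt_cases X.π₁ i with ⟨x, hx, hv⟩ | ⟨hge, _⟩
    · by_cases hc : ∃ τ : Fin (2 ^ Q), 2 * (τ : ℕ) + 1 = c
      · obtain ⟨τ, hτ⟩ := hc
        have hsub : {ω : ι₁ × ι₂ × Fin (2 ^ Q) | (Fintype.equivFin ι₁ ω.1 : ℕ) = i ∧ 2 * (ω.2.2 : ℕ) + 1 = c}
            ⊆ {ω | ω.1 = x ∧ ω.2.2 = τ} := by
          rintro ω ⟨h1, h2⟩
          refine ⟨?_, ?_⟩
          · apply (Fintype.equivFin ι₁).injective
            apply Fin.ext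
            rw [h1, hx]
          · apply Fin.ext
            omega
        refine (k3mP_mono hlaw hsub).trans ?_
        rw [k3m_P_fib₁, hv]
        show ∑ i₂, X.w x i₂ τ / X.tot ≤ _
        rw [← Finset.sum_div]
        exact k3m_marg_aux hK (h.π₁_nonneg x) (h.marg₁ x τ) h.mass
      · have hemp : {ω : ι₁ × ι₂ × Fin (2 ^ Q) | (Fintype.equivFin ι₁ ω.1 : ℕ) = i ∧ 2 * (ω.2.2 : ℕ) + 1 = c} = ∅ := by
          ext ω
          simp only [Set.mem_ofPred_eq, Set.mem_empty_iff_false, iff_false, not_and]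
          intro _ h2
          exact hc ⟨ω.2.2, h2⟩
        rw [hemp, k3mP_empty]
        exact hr
    · have hemp : {ω : ι₁ × ι₂ × Fin (2 ^ Q) | (Fintype.equivFin ι₁ ω.1 : ℕ) = i ∧ 2 * (ω.2.2 : ℕ) + 1 = c} = ∅ := by
        ext ω
        simp only [Set.mem_ofPred_eq, Set.mem_empty_iff_false, iff_false, not_and]
        intro h1 _
        have := (Fintype.equivFin ι₁ ω.1).2
        omega
      rw [hemp, k3mP_empty]
      exact hr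
  | false =>
    show k3mP (X.dat J N (2 * K ^ 2)).p {ω | (Fintype.equivFin ι₂ ω.2.1 : ℕ) = i ∧ 2 * (ω.2.2 : ℕ) + 1 = c}
      ≤ (2 * K ^ 2) * k3mExt X.π₂ i / 2 ^ (Q + 1)
    have hr : 0 ≤ (2 * K ^ 2) * k3mExt X.π₂ i / 2 ^ (Q + 1) := by
      have := k3mExt_nonneg h.π₂_nonneg i
      positivity
    rcases k3mExt_cases X.π₂ i with ⟨x, hx, hv⟩ | ⟨hge, _⟩
    · by_cases hc : ∃ τ : Fin (2 ^ Q), 2 * (τ : ℕ) + 1 = c
      · obtain ⟨τ, hτ⟩ := hc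
        have hsub : {ω : ι₁ × ι₂ × Fin (2 ^ Q) | (Fintype.equivFin ι₂ ω.2.1 : ℕ) = i ∧ 2 * (ω.2.2 : ℕ) + 1 = c}
            ⊆ {ω | ω.2.1 = x ∧ ω.2.2 = τ} := by
          rintro ω ⟨h1, h2⟩
          refine ⟨?_, ?_⟩
          · apply (Fintype.equivFin ι₂).injective
            apply Fin.ext
            rw [h1, hx]
          · apply Fin.ext
            omega
        refine (k3mP_mono hlaw hsub).trans ?_
        rw [k3m_P_fib₂, hv]
        show ∑ i₁, X.w i₁ x τ / X.tot ≤ _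
        rw [← Finset.sum_div]
        exact k3m_marg_aux hK (h.π₂_nonneg x) (h.marg₂ x τ) h.mass
      · have hemp : {ω : ι₁ × ι₂ × Fin (2 ^ Q) | (Fintype.equivFin ι₂ ω.2.1 : ℕ) = i ∧ 2 * (ω.2.2 : ℕ) + 1 = c} = ∅ := by
          ext ω
          simp only [Set.mem_ofPred_eq, Set.mem_empty_iff_false, iff_false, not_and]
          intro _ h2
          exact hc ⟨ω.2.2, h2⟩
        rw [hemp, k3mP_empty]
        exact hr
    · have hemp : {ω : ι₁ × ι₂ × Fin (2 ^ Q) | (Fintype.equivFin ι₂ ω.2.1 : ℕ) = i ∧ 2 * (ω.2.2 : ℕ) + 1 = c} = ∅ := by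
        ext ω
        simp only [Set.mem_ofPred_eq, Set.mem_empty_iff_false, iff_false, not_and]
        intro h1 _
        have := (Fintype.equivFin ι₂ ω.2.1).2
        omega
      rw [hemp, k3mP_empty]
      exact hr

theorem k3mExt_jet {ι : Type} [Fintype ι] {J : ℕ} {K : ℝ} {g : ι → ℕ → ℝ → ℝ} (h : K3aJet ι J K g) (i : ℕ) : K3mJet (k3mExt g i) (J + 1) := by
  intro j hj t ht
  rcases k3mExt_cases g i with ⟨x, _, hx⟩ | ⟨_, h0⟩
  · rw [hx]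
    exact h.der x j (Nat.lt_succ_iff.mp hj) t ht
  · rw [h0]
    exact hasDerivWithinAt_const t _ (0 : ℝ)

theorem k3mExt_bound {ι : Type} [Fintype ι] {J : ℕ} {K : ℝ} {g : ι → ℕ → ℝ → ℝ} (h : K3aJet ι J K g) (hK : 0 ≤ K) (i j : ℕ) (hj : j ≤ J + 1)
    (t : ℝ) (ht : t ∈ Set.Icc (0 : ℝ) 1) : |k3mExt g i j t| ≤ K := by
  rcases k3mExt_cases g i with ⟨x, _, hx⟩ | ⟨_, h0⟩
  · rw [hx]
    exact h.bd x j hj t ht
  · rw [h0]
    simpa using hK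

/-- **X2** all fields.   `jet`, `bound`, `π_nonneg`: `k3mExt_cases` (the zero family is a jet: `hasDerivWithinAt_const`);  `π_sum`: `k3mExt_sum`;  `val`, `der`: `dat_gap`, `p ω ≠ 0 → w ≠ 0`, `K ≤ 2 K²`;  `marg`: `dat_marg`;  `law`: `dat_law`. -/
theorem K3aFin.dat_raw {X : K3aFin ι₁ ι₂ Q} {D J : ℕ} {d N K : ℝ} (h : X.Ok D J d N K) (hD : 1 ≤ D) (hJ : D < J) (hN : 2 ≤ N) (hK : 1 ≤ K)
    (hQ : N ^ (3 : ℝ) ≤ (2 : ℝ) ^ Q) : (X.dat J N (2 * K ^ 2)).Raw D := by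
  have hK0 : 0 < K := by linarith
  have hKK : K ≤ 2 * K ^ 2 := by nlinarith
  have hN0 : 0 < N := by linarith
  have hw : ∀ ω, (X.dat J N (2 * K ^ 2)).p ω ≠ 0 → X.w ω.1 ω.2.1 ω.2.2 ≠ 0 := by
    intro ω hω h0
    apply hω
    show X.w ω.1 ω.2.1 ω.2.2 / X.tot = 0
    rw [h0, zero_div]
  refine ⟨hD, hJ, hN, by show 1 ≤ 2 * K ^ 2; linarith, ?_, K3aFin.dat_law h hK0 _, ?_, ?_, ?_, ?_, ?_, ?_, ?_, ?_, ?_⟩
  · show N ^ 3 ≤ 2 ^ (Q + 1)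
    have e : N ^ (3 : ℝ) = N ^ 3 := by
      rw [← Real.rpow_natCast]
      norm_num
    rw [← e]
    refine hQ.trans ?_
    exact pow_le_pow_right₀ (by norm_num) (Nat.le_succ Q)
  · intro col i
    cases col with
    | true => exact k3mExt_jet h.jet₁ i
    | false => exact k3mExt_jet h.jet₂ i
  · intro col i j hj t ht
    show _ ≤ 2 * K ^ 2
    cases col with
    | true => exact (k3mExt_bound h.jet₁ hK0.le i j hj t ht).trans hKK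
    | false => exact (k3mExt_bound h.jet₂ hK0.le i j hj t ht).trans hKK
  · intro ω _ col
    cases col with
    | true => exact (Fintype.equivFin ι₁ ω.1).2
    | false => exact (Fintype.equivFin ι₂ ω.2.1).2
  · intro ω
    show 2 * (ω.2.2 : ℕ) + 1 < 2 ^ (Q + 1)
    have := ω.2.2.2
    rw [pow_succ]
    omega
  · intro ω hω
    rw [K3aFin.dat_gap]
    show _ ≤ 2 * K ^ 2 / N
    refine (h.close _ _ _ (hw ω hω)).trans ?_
    gcongr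
  · intro ω hω
    obtain ⟨j, h1, h2, h3⟩ := h.gap _ _ _ (hw ω hω)
    refine ⟨j, h1, h2, ?_⟩
    rw [K3aFin.dat_gap]
    show 1 / (2 * K ^ 2) ≤ _
    refine le_trans ?_ h3
    gcongr
  · intro col i
    cases col with
    | true => exact k3mExt_nonneg h.π₁_nonneg i
    | false => exact k3mExt_nonneg h.π₂_nonneg i
  · intro col
    cases col with
    | true =>
      show ∑ i ∈ range (Fintype.card ι₁), k3mExt X.π₁ i ≤ 1
      rw [k3mExt_sum]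
      exact h.π₁_sum
    | false =>
      show ∑ i ∈ range (Fintype.card ι₂), k3mExt X.π₂ i ≤ 1
      rw [k3mExt_sum]
      exact h.π₂_sum
  · intro col i c
    exact K3aFin.dat_marg h hK col i c

/-! ## 3. the exit      (leaf L-252-K3M-X4) -/

/-- **EXIT.**   `ε, N0` from `K3mDiscrete`;   `ε' = ε/3`, `A = 3`, `N₁ = max N0 (max 2 (2^(3/ε)))`.   For `N ≥ N₁`, `K = N^ε' ≥ 1`:  `2 ≤ N^(ε/3)`, so `2 K² ≤ N^ε`;   `card ι₁ ≤ K N^d0 = N^(d0 + ε/3) ≤ N^(d0 + ε)`;   `dat_raw`. -/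
theorem k3m_disc {D J : ℕ} (hD : 1 ≤ D) (hJ : D < J) {d0 : ℝ} (h : K3mDiscrete D J d0) : K3aFinStmt D J d0 := by
  obtain ⟨ε, N0, hε, H⟩ := h
  refine ⟨ε / 3, by positivity, max N0 (max 2 ((2 : ℝ) ^ (3 / ε))), 3, ?_⟩
  intro N hN Q hQ ι₁ ι₂ _ _ X hOk
  have hN0 : N0 ≤ N := (le_max_left _ _).trans hN
  have hN2 : 2 ≤ N := ((le_max_left _ _).trans (le_max_right _ _)).trans hN
  have hN3 : (2 : ℝ) ^ (3 / ε) ≤ N := ((le_max_right _ _).trans (le_max_right _ _)).trans hN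
  have hNp : 0 < N := by linarith
  have hK1 : 1 ≤ N ^ (ε / 3) := Real.one_le_rpow (by linarith) (by positivity)
  have h2K : 2 ≤ N ^ (ε / 3) := by
    have e : ((2 : ℝ) ^ (3 / ε)) ^ (ε / 3) = 2 := by
      rw [← Real.rpow_mul (by norm_num)]
      have : 3 / ε * (ε / 3) = 1 := by field_simp
      rw [this, Real.rpow_one]
    calc (2 : ℝ) = ((2 : ℝ) ^ (3 / ε)) ^ (ε / 3) := e.symm
      _ ≤ N ^ (ε / 3) := Real.rpow_le_rpow (by positivity) hN3 (by positivity)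
  have hK3 : (N ^ (ε / 3)) ^ 3 = N ^ ε := by
    rw [← Real.rpow_natCast, ← Real.rpow_mul hNp.le]
    congr 1
    push_cast
    ring
  refine H _ (X.dat J N (2 * (N ^ (ε / 3)) ^ 2)) rfl (K3aFin.dat_raw hOk hD hJ hN2 hK1 hQ) hN0 ?_ ?_
  · show 2 * (N ^ (ε / 3)) ^ 2 ≤ N ^ ε
    rw [← hK3]
    have : 0 ≤ (N ^ (ε / 3)) ^ 2 := by positivity
    nlinarith
  · show ((Fintype.card ι₁ : ℕ) : ℝ) ≤ N ^ (d0 + ε)
    refine hOk.card₁.trans ?_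
    rw [← Real.rpow_add hNp]
    apply Real.rpow_le_rpow_of_exponent_le (by linarith)
    linarith

end

end Claimed.Agent.R252

end PkS3mDisc

section PkS3aContract

/-!
# ROW 252, Sec 3a: CONTRACT (exit statements of the unit, architect helper10)

L3.3 (`lem:two-color-matching`), finite-scale form (= its last sentence): for fixed `1 ≤ D < J`, `d₀ < 1` there are `ε > 0`, `N₁` such that for `N ≥ N₁` NO configuration satisfies the hypotheses with slack `K = N^ε`.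
* `k3a_uniform`       : `K3mUniform D J d₀` (T2 of `S3m/Main.lean`) = `k3m_uniform` of `S3m/Sum.lean` (helper93).  This file is glue only.
* `k3a_matching_fin`  : finite form (`K3aFin`, `S3a/Exit.lean`) = `k3m_disc` (`S3m/Disc.lean`) ∘ `k3m_beta` (`S3m/Beta.lean`) ∘ T2.
* `k3a_matching_meas` : measure form (`K3aMs`): the exit for the consumers (Cor 3.4, unit S3c).
* `k3a_matching`      : density form (`K3aCfg`, `S3a/Defs.lean`).
-/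

set_option autoImplicit false
open Set MeasureTheory

namespace Claimed.Agent.R252

/-- T2 of unit S3m. -/
theorem k3a_uniform (D J : ℕ) (hD : 1 ≤ D) (hJ : D < J) (d₀ : ℝ) (hd : d₀ < 1) : K3mUniform D J d₀ :=
  k3m_uniform D J hD hJ d₀ hd

/-- **L3.3, two-colour matching, finite form.** -/
theorem k3a_matching_fin (D J : ℕ) (hD : 1 ≤ D) (hJ : D < J) (d₀ : ℝ) (hd : d₀ < 1) : K3aFinStmt D J d₀ :=
  k3m_disc hD hJ (k3m_beta (k3a_uniform D J hD hJ d₀ hd))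

/-- **L3.3, two-colour matching, measure form.** -/
theorem k3a_matching_meas (D J : ℕ) (hD : 1 ≤ D) (hJ : D < J) (d₀ : ℝ) (hd : d₀ < 1) :
    ∃ ε : ℝ, 0 < ε ∧ ∃ N₁ : ℝ, ∀ N ≥ N₁, ∀ (ι₁ ι₂ : Type) [Fintype ι₁] [Fintype ι₂] (X : K3aMs ι₁ ι₂),
      ¬ X.Ok D J d₀ N (N ^ ε) :=
  k3a_meas_of_fin hJ (k3a_matching_fin D J hD hJ d₀ hd)

/-- **L3.3, two-colour matching, density form.** -/
theorem k3a_matching (D J : ℕ) (hD : 1 ≤ D) (hJ : D < J) (d₀ : ℝ) (hd : d₀ < 1) :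
    ∃ ε : ℝ, 0 < ε ∧ ∃ N₁ : ℝ, ∀ N ≥ N₁, ∀ (ι₁ ι₂ : Type) [Fintype ι₁] [Fintype ι₂] (X : K3aCfg ι₁ ι₂),
      ¬ X.Ok D J d₀ N (N ^ ε) := by
  obtain ⟨ε, hε, N₁, h⟩ := k3a_matching_meas D J hD hJ d₀ hd
  refine ⟨ε, hε, max N₁ 1, fun N hN ι₁ ι₂ _ _ X hX => ?_⟩
  have hN1 : (1 : ℝ) ≤ N := le_trans (le_max_right _ _) hN
  have hK : 0 < N ^ ε := Real.rpow_pos_of_pos (by linarith) _
  exact h N (le_trans (le_max_left _ _) hN) ι₁ ι₂ X.toMs (K3aCfg.Ok.toMs hX hK)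

end Claimed.Agent.R252

end PkS3aContract
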